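import Vale.Agent.P011UBN.Kit

/-!
Geodesics in buildings: folds only occur at the walls through the first point.
-/

set_option autoImplicit false
set_option linter.all false

namespace Vale.Agent.P011UBN

open Matrix Vale.Agent.P183CH Vale.Agent.P011U Vale.Agent.P011UHB
open Vale.Agent.P011UC (pa)

variable {R : RS} {X : Type} {δ : X → X → R.Aut} {θ : X → X} {π : Equiv.Perm (Fin R.r)}
  {S : Set (Fin R.r → ℝ)} {a b c e w : R.Aut} {x y z : X} {P Q T : Fin R.r → ℝ} {l s t : ℝ}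

/-- `c` fixes `S` pointwise -/
def Fx (S : Set (Fin R.r → ℝ)) (c : R.Aut) : Prop := ∀ y ∈ S, ac R c y = y

theorem Fx.one : Fx S (1 : R.Aut) := fun y _ => ac_one y

theorem Fx.mul (h : Fx S a) (h' : Fx S b) : Fx S (a * b) := fun y e => by
  rw [ac_mul, h' y e, h y e]

theorem Fx.inv (h : Fx S a) : Fx S a⁻¹ := fun y e => ac_inv_fix (h y e)

theorem Fx.conj (h : Fx S a) (hw : ∀ y ∈ S, ac R w⁻¹ y ∈ S) : Fx S (w * a * w⁻¹) := fun y e => by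
  rw [ac_mul, ac_mul, h _ (hw y e), ac_ac_inv]

/-- the vectors on all the walls through `P` -/
def Sp (P : Fin R.r → ℝ) : Set (Fin R.r → ℝ) :=
  {y | ∀ γ ∈ R.Φ, ip R P (cv R γ) = 0 → ip R y (cv R γ) = 0}

/-- marked chambers -/
structure Mk (R : RS) (X : Type) where
  a : X
  l : R.Aut
  P : Fin R.r → ℝ

/-- the point lies in the chamber -/
def Mk.Ok (S : Set (Fin R.r → ℝ)) (m : Mk R X) : Prop := m.l ∈ R.W ∧ m.P ∈ S ∧ Dm R (ac R m.l⁻¹ m.P)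

/-- the distance is given by the labels -/
def D (δ : X → X → R.Aut) (S : Set (Fin R.r → ℝ)) (m n : Mk R X) : Prop :=
  Fx S (m.l * δ m.a n.a * n.l⁻¹)

/-- the shift -/
noncomputable def sh (θ : X → X) (π : Equiv.Perm (Fin R.r)) (w : R.Aut) (m : Mk R X) : Mk R X :=
  ⟨θ m.a, w * m.l * (pa R π)⁻¹, ac R w m.P⟩

variable {m n k : Mk R X}

theorem D.symm (hB : Bld R δ) (h : D δ S m n) : D δ S n m := by
  have := Fx.inv h
  rwa [_root_.mul_inv_rev, _root_.mul_inv_rev, inv_inv, ← hB.inv, ← mul_assoc] at this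

theorem D.sh (hA : Au R δ θ π) (hw : ∀ y ∈ S, ac R w⁻¹ y ∈ S) (h : D δ S m n) :
    D δ S (sh θ π w m) (sh θ π w n) := by
  have := Fx.conj h hw
  unfold D P011UBN.sh
  simp only [hA.2]
  rwa [show w * m.l * (pa R π)⁻¹ * (pa R π * δ m.a n.a * (pa R π)⁻¹) * (w * n.l * (pa R π)⁻¹)⁻¹ =
    w * (m.l * δ m.a n.a * n.l⁻¹) * w⁻¹ by group]

section

variable (hR : R.Ok)
include hR

theorem Mk.Ok.sh (hπ : Dg R π) (hu : w * (pa R π)⁻¹ ∈ R.W) (hw : ∀ y ∈ S, ac R w y ∈ S)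
    (h : m.Ok S) : (sh θ π w m).Ok S := by
  refine ⟨?_, hw _ h.2.1, ?_⟩
  · have := mul_mem hu (pa_conj hR hπ h.1)
    rwa [show w * (pa R π)⁻¹ * (pa R π * m.l * (pa R π)⁻¹) = w * m.l * (pa R π)⁻¹ by group] at this
  · have := dm_pa hR hπ h.2.2
    unfold P011UBN.sh
    rwa [← ac_mul, show (w * m.l * (pa R π)⁻¹)⁻¹ * w = pa R π * m.l⁻¹ by group, ac_mul]

theorem sp_sh (hw : Is R w) (hw' : ∀ y ∈ S, ac R w⁻¹ y ∈ S) (h : S ⊆ Sp P) : S ⊆ Sp (ac R w P) :=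
  fun y hy γ hγ e => by
    have := h (hw' y hy) _ (hw.2 γ hγ).2 (by rw [← hw.inv.ev hR, inv_inv, e])
    rwa [hw.ev hR, RS.app_inv] at this

theorem apt (hB : Bld R δ) (he : e ∈ R.W) (y y' : X) : ∃ z, δ y z = e ∧ δ y' z = δ y' y * e := by
  refine hR.ind (J := Set.univ) (P := fun e => ∃ z, δ y z = e ∧ δ y' z = δ y' y * e)
    ⟨y, hB.refl y, (mul_one _).symm⟩ (fun e he j _ hj ⟨z, h1, h2⟩ => ?_) he
  obtain ⟨z', h3, h4⟩ := hB.ext y' z j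
  refine ⟨z', ?_, by rw [h4, h2, mul_assoc]⟩
  rcases hB.step y z z' j h3 with h | h
  · rw [h, h1]
  · exact (hR.not_both (hR.map_mem he (hR.simple j)) hj (h1 ▸ h.2)).elim

theorem geo (hB : Bld R δ) (hP : Dm R P) (hQ : Dm R (ac R (δ x y)⁻¹ Q)) (hl : 0 ≤ l) (hs : 0 < s)
    (ht : 0 ≤ t) (hE : l • Q = s • P + t • T) (hb : b ∈ R.W) : ∀ z, δ y z = b →
    (∀ β ∈ R.Φ, 0 ≤ β → b⁻¹ β ≤ 0 → ip R T (cv R (δ x y β)) ≤ 0) →
    ∃ c ∈ R.W, Fx (Sp P) c ∧ δ x z = c * δ x y * b := by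
  refine hR.ind (J := Set.univ) (P := fun b => ∀ z, δ y z = b →
    (∀ β ∈ R.Φ, 0 ≤ β → b⁻¹ β ≤ 0 → ip R T (cv R (δ x y β)) ≤ 0) →
    ∃ c ∈ R.W, Fx (Sp P) c ∧ δ x z = c * δ x y * b) (fun z h _ => ⟨1, one_mem _, Fx.one, ?_⟩)
    (fun b hb j _ hj ih z hz H => ?_) hb
  · rw [hB.one x y z h, one_mul, mul_one]
  obtain ⟨z', h1, h2⟩ := hB.ext y z j
  rw [hz, hR.mul_sE_sE] at h2
  have hβ := hR.map_mem hb (hR.simple j)
  obtain ⟨c, hc, hF, h3⟩ := ih z' h2 fun β hβ h0 h4 => H β hβ h0 (by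
    rw [_root_.mul_inv_rev, hR.sE_inv, RS.mul_app]
    have h5 := hR.neg_mem (hR.map_mem (inv_mem hb) hβ)
    have h6 := (hR.s_pos (i := j) ⟨h5, neg_nonneg.2 h4⟩ fun e => hR.not_both hβ h0 (by
      rw [← RS.app_inv b β, ← neg_neg (b⁻¹ β), e, map_neg]
      exact neg_nonpos.2 hj)).2
    rwa [map_neg, neg_nonneg] at h6)
  have h4 : δ z' z = R.sE j := by rw [hB.inv, h1, hR.sE_inv]
  rcases hB.step x z' z j h4 with h | ⟨h, h5⟩
  · exact ⟨c, hc, hF, by rw [h, h3, mul_assoc]⟩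
  have ha := hB.mem x y
  have hγ := hR.map_mem ha hβ
  have k1 := H _ hβ hj (by
    rw [_root_.mul_inv_rev, hR.sE_inv, RS.mul_app, RS.inv_app, hR.sE_α]
    exact neg_nonpos.2 (RS.α_nonneg j))
  have k2 := Dm.nonneg hQ hj
  rw [(is_W hR ha).ev hR] at k2
  have k3 := Dm.nonpos hP h5
  rw [h3, RS.mul_app, RS.mul_app, ← (is_W hR hc).ev hR, ac_inv_fix (hF P fun _ _ e => e)] at k3
  have k4 := congrArg (ip R · (cv R (δ x y (b (R.α j))))) hE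
  simp only [ip_add, ip_smul] at k4
  have k5 : ip R P (cv R (δ x y (b (R.α j)))) = 0 := by
    have := mul_nonneg hl k2
    have := mul_nonpos_of_nonneg_of_nonpos ht k1
    exact le_antisymm k3 (le_of_mul_le_mul_left (by linarith) hs)
  have hg := mul_mem ha hb
  refine ⟨c * (δ x y * b * R.sE j * (δ x y * b)⁻¹), mul_mem hc
    (mul_mem (mul_mem hg (RS.sE_mem_W j)) (inv_mem hg)), hF.mul fun v hv => ?_, ?_⟩
  · rw [ac_mul, ac_mul, sE_fix hR, ac_ac_inv]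
    rw [(is_W hR hg).ev hR]
    exact hv _ hγ k5
  · rw [h, h3]
    symm
    calc _ = c * δ x y * (b * R.sE j * R.sE j) := by group
      _ = _ := by rw [hR.mul_sE_sE]

theorem D.trans (hB : Bld R δ) (hm : m.Ok S) (hn : n.Ok S) (hk : k.Ok S) (hS : S ⊆ Sp m.P)
    (h : D δ S m n) (h' : D δ S n k) (hl : 0 ≤ l) (hs : 0 < s) (ht : 0 ≤ t)
    (hE : l • n.P = s • m.P + t • k.P) : D δ S m k := by
  have e1 : ∀ v ∈ S, ac R (δ m.a n.a)⁻¹ (ac R m.l⁻¹ v) = ac R n.l⁻¹ v := fun v hv => by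
    rw [← ac_mul, show (δ m.a n.a)⁻¹ * m.l⁻¹ = n.l⁻¹ * (m.l * δ m.a n.a * n.l⁻¹)⁻¹ by group, ac_mul,
      Fx.inv h v hv]
  have e2 : ac R (δ n.a k.a)⁻¹ (ac R n.l⁻¹ k.P) = ac R k.l⁻¹ k.P := by
    rw [← ac_mul, show (δ n.a k.a)⁻¹ * n.l⁻¹ = k.l⁻¹ * (n.l * δ n.a k.a * k.l⁻¹)⁻¹ by group, ac_mul,
      Fx.inv h' _ hk.2.1]
  obtain ⟨c, hc, hF, e⟩ := geo hR hB (x := m.a) (y := n.a) (Q := ac R m.l⁻¹ n.P)
    (T := ac R m.l⁻¹ k.P) hm.2.2 (by rw [e1 _ hn.2.1]; exact hn.2.2) hl hs ht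
    (by rw [← ac_smul, hE, ac_add, ac_smul, ac_smul]) (hB.mem n.a k.a) k.a rfl fun β _ _ h1 => by
      have := Dm.nonpos hk.2.2 h1
      rwa [← e2, (is_W hR (hB.mem _ _)).ev hR, RS.app_inv, ← e1 _ hk.2.1,
        (is_W hR (hB.mem _ _)).ev hR] at this
  have h3 : Fx S (m.l * c * m.l⁻¹) := fun v hv => by
    rw [ac_mul, ac_mul, hF, ac_ac_inv]
    intro γ hγ h4
    rw [(is_W hR hm.1).ev hR] at h4 ⊢
    exact hS hv _ (hR.map_mem hm.1 hγ) h4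
  have := (h3.mul h).mul h'
  unfold D
  rwa [e, show m.l * (c * δ m.a n.a * δ n.a k.a) * k.l⁻¹ =
    m.l * c * m.l⁻¹ * (m.l * δ m.a n.a * n.l⁻¹) * (n.l * δ n.a k.a * k.l⁻¹) by group]

theorem mid (hB : Bld R δ) (hm : m.Ok S) (h : D δ S n m) (hP : P ∈ S) :
    ∃ k : Mk R X, k.P = P ∧ k.Ok S ∧ D δ S m k ∧ D δ S n k := by
  obtain ⟨e, he, h1⟩ := exists_dm hR P
  obtain ⟨z, h2, h3⟩ := apt hR hB (mul_mem (inv_mem hm.1) he) m.a n.a
  refine ⟨⟨z, e, P⟩, rfl, ⟨he, hP, h1⟩, ?_, ?_⟩ <;> unfold D <;> simp only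
  · rw [h2, show m.l * (m.l⁻¹ * e) * e⁻¹ = 1 by group]
    exact Fx.one
  · rwa [h3, show n.l * (δ n.a m.a * (m.l⁻¹ * e)) * e⁻¹ = n.l * δ n.a m.a * m.l⁻¹ by group]

theorem pa_pow (hB : Bld R δ) (hA : Au R δ θ π) {l : ℕ} (h : ∀ x, δ x (θ^[l] x) = 1) (x : X) :
    pa R π ^ l = 1 := by
  have h1 : ∀ n x y, δ (θ^[n] x) (θ^[n] y) = pa R π ^ n * δ x y * (pa R π ^ n)⁻¹ := fun n x y => by
    induction n with
    | zero => simp
    | succ n ih =>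
      rw [Function.iterate_succ_apply', Function.iterate_succ_apply', hA.2, ih, pow_succ']
      group
  refine RS.aut_ext fun i => ?_
  obtain ⟨y, h2, -⟩ := hB.ext x x i
  have h3 := h1 l x y
  rw [hB.one _ _ _ (h y), hB.inv, hB.one _ _ _ (h x), ← hB.inv, h2, eq_mul_inv_iff_mul_eq] at h3
  have h4 := congrArg (fun g : R.Aut => g (R.α i)) h3
  simp only [RS.mul_app, hR.sE_α, map_neg, pa_pow_α] at h4
  rw [pa_pow_α]
  exact hR.eq_α_of_neg (hR.α_pos _) (by rw [h4]; exact neg_nonpos.2 (RS.α_nonneg _))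

end

end Vale.Agent.P011UBN
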