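import Vale.Agent.P011UHB.Defs
import Vale.Agent.P183CH2.Len

/-!
The real reflection representation of the extended Weyl group.
-/

set_option autoImplicit false
set_option linter.all false

namespace Vale.Agent.P011UBN

open Matrix Vale.Agent.P183CH Vale.Agent.P011U Vale.Agent.P011UHB
open Vale.Agent.P011UC (pa)

variable {R : RS} {w w' g : R.Aut} {x y z : Fin R.r → ℝ} {γ δ : R.Q} {i j : Fin R.r}
  {π : Equiv.Perm (Fin R.r)} {J : Set (Fin R.r)}

theorem cv_add (γ δ : R.Q) : cv R (γ + δ) = cv R γ + cv R δ := funext fun i => by simp [cv]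

theorem cv_neg (γ : R.Q) : cv R (-γ) = -cv R γ := funext fun i => by simp [cv]

theorem cv_sub (γ δ : R.Q) : cv R (γ - δ) = cv R γ - cv R δ := funext fun i => by simp [cv]

theorem cv_smul (m : ℤ) (γ : R.Q) : cv R (m • γ) = (m : ℝ) • cv R γ := funext fun i => by simp [cv]

theorem cv_zero : cv R 0 = 0 := funext fun i => by simp [cv]

theorem cv_sum {ι : Type} (s : Finset ι) (f : ι → R.Q) :
    cv R (∑ i ∈ s, f i) = ∑ i ∈ s, cv R (f i) := funext fun j => by simp [cv, Finset.sum_apply]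

theorem cv_inj (h : cv R γ = cv R δ) : γ = δ := funext fun i => Int.cast_injective (congrFun h i)

theorem eq_sum (x : Fin R.r → ℝ) : x = ∑ i, x i • cv R (R.α i) := funext fun j => by
  simp [cv, RS.α_apply, Finset.sum_apply]

/-- the action as a linear map -/
noncomputable def acL (w : R.Aut) : (Fin R.r → ℝ) →ₗ[ℝ] (Fin R.r → ℝ) where
  toFun := ac R w
  map_add' x y := by simp [ac, add_smul, Finset.sum_add_distrib]
  map_smul' a x := by simp [ac, Finset.smul_sum, mul_smul]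

theorem ac_add (w : R.Aut) (x y : Fin R.r → ℝ) : ac R w (x + y) = ac R w x + ac R w y :=
  (acL w).map_add x y

theorem ac_sub (w : R.Aut) (x y : Fin R.r → ℝ) : ac R w (x - y) = ac R w x - ac R w y :=
  (acL w).map_sub x y

theorem ac_neg (w : R.Aut) (x : Fin R.r → ℝ) : ac R w (-x) = -ac R w x := (acL w).map_neg x

theorem ac_smul (w : R.Aut) (a : ℝ) (x : Fin R.r → ℝ) : ac R w (a • x) = a • ac R w x :=
  (acL w).map_smul a x

theorem ac_zero (w : R.Aut) : ac R w 0 = 0 := (acL w).map_zero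

theorem ac_sum {ι : Type} (w : R.Aut) (s : Finset ι) (f : ι → Fin R.r → ℝ) :
    ac R w (∑ i ∈ s, f i) = ∑ i ∈ s, ac R w (f i) := map_sum (acL w) f s

theorem ac_cv (w : R.Aut) (γ : R.Q) : ac R w (cv R γ) = cv R (w γ) := by
  rw [RS.map_eq w γ, cv_sum]
  simp only [cv_smul]
  rfl

theorem ac_mul (w w' : R.Aut) (x : Fin R.r → ℝ) : ac R (w * w') x = ac R w (ac R w' x) := by
  rw [show ac R w' x = ∑ i, x i • cv R (w' (R.α i)) from rfl, ac_sum]
  simp only [ac_smul, ac_cv]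
  rfl

theorem ac_one (x : Fin R.r → ℝ) : ac R 1 x = x := (eq_sum x).symm

theorem ac_inv_ac (w : R.Aut) (x : Fin R.r → ℝ) : ac R w⁻¹ (ac R w x) = x := by
  rw [← ac_mul, inv_mul_cancel, ac_one]

theorem ac_ac_inv (w : R.Aut) (x : Fin R.r → ℝ) : ac R w (ac R w⁻¹ x) = x := by
  rw [← ac_mul, mul_inv_cancel, ac_one]

theorem ac_inv_fix (h : ac R w x = x) : ac R w⁻¹ x = x := by
  conv_lhs => rw [← h, ac_inv_ac]

theorem eq_one_of (h : ∀ x, ac R w x = x) : w = 1 :=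
  RS.aut_ext fun i => cv_inj (by rw [← ac_cv, h]; rfl)

/-- the scalar product as a bilinear map -/
noncomputable def ipL (R : RS) : (Fin R.r → ℝ) →ₗ[ℝ] (Fin R.r → ℝ) →ₗ[ℝ] ℝ :=
  LinearMap.mk₂ ℝ (ip R) (fun x x' y => by simp [ip, add_mul, Finset.sum_add_distrib])
    (fun a x y => by simp [ip, Finset.mul_sum, mul_assoc])
    (fun x y y' => by simp [ip, add_mul, mul_add, Finset.sum_add_distrib])
    (fun a x y => by simp [ip, Finset.mul_sum, mul_assoc, mul_left_comm])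

theorem ip_add (x y z : Fin R.r → ℝ) : ip R (x + y) z = ip R x z + ip R y z :=
  (ipL R).map_add₂ x y z

theorem ip_sub (x y z : Fin R.r → ℝ) : ip R (x - y) z = ip R x z - ip R y z :=
  (ipL R).map_sub₂ x y z

theorem ip_smul (a : ℝ) (x z : Fin R.r → ℝ) : ip R (a • x) z = a * ip R x z :=
  (ipL R).map_smul₂ a x z

theorem ip_neg (x z : Fin R.r → ℝ) : ip R (-x) z = -ip R x z := (ipL R).map_neg₂ x z

theorem ip_add' (x y z : Fin R.r → ℝ) : ip R z (x + y) = ip R z x + ip R z y := (ipL R z).map_add x y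

theorem ip_sub' (x y z : Fin R.r → ℝ) : ip R z (x - y) = ip R z x - ip R z y := (ipL R z).map_sub x y

theorem ip_smul' (a : ℝ) (x z : Fin R.r → ℝ) : ip R z (a • x) = a * ip R z x :=
  (ipL R z).map_smul a x

theorem ip_neg' (x z : Fin R.r → ℝ) : ip R z (-x) = -ip R z x := (ipL R z).map_neg x

theorem ip_sum {ι : Type} (s : Finset ι) (f : ι → Fin R.r → ℝ) (z : Fin R.r → ℝ) :
    ip R (∑ i ∈ s, f i) z = ∑ i ∈ s, ip R (f i) z := (ipL R).map_sum₂ s f z

theorem ip_sum' {ι : Type} (s : Finset ι) (f : ι → Fin R.r → ℝ) (z : Fin R.r → ℝ) :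
    ip R z (∑ i ∈ s, f i) = ∑ i ∈ s, ip R z (f i) := map_sum (ipL R z) f s

theorem ip_right (x y : Fin R.r → ℝ) : ip R x y = ∑ i, y i * ip R x (cv R (R.α i)) := by
  conv_lhs => rw [eq_sum y, ip_sum']
  simp only [ip_smul']

theorem Dm.nonneg (h : Dm R x) (hγ : 0 ≤ γ) : 0 ≤ ip R x (cv R γ) := by
  rw [ip_right]
  exact Finset.sum_nonneg fun i _ => mul_nonneg (Int.cast_nonneg (hγ i)) (h i)

theorem Dm.nonpos (h : Dm R x) (hγ : γ ≤ 0) : ip R x (cv R γ) ≤ 0 := by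
  have := Dm.nonneg h (neg_nonneg.2 hγ)
  rwa [cv_neg, ip_neg', neg_nonneg] at this

theorem pa_apply (γ : R.Q) (j : Fin R.r) : pa R π γ j = γ (π.symm j) := rfl

theorem pa_α (i : Fin R.r) : pa R π (R.α i) = R.α (π i) := funext fun j => by
  simp only [pa_apply, RS.α_apply, Equiv.symm_apply_eq]

theorem pa_pow_α (n : ℕ) (i : Fin R.r) : (pa R π ^ n) (R.α i) = R.α ((π ^ n) i) := by
  induction n with
  | zero => rfl
  | succ n ih => rw [pow_succ', RS.mul_app, ih, pa_α, pow_succ', Equiv.Perm.mul_apply]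

theorem pa_inv (π : Equiv.Perm (Fin R.r)) : (pa R π)⁻¹ = pa R π⁻¹ :=
  inv_eq_of_mul_eq_one_right (RS.aut_ext fun i => by
    rw [RS.mul_app, pa_α, pa_α, RS.one_app]; simp)

theorem dg_inv (h : Dg R π) : Dg R π⁻¹ := fun i j => by
  rw [← h]; simp

theorem pa_pr (h : Dg R π) (γ : R.Q) (j : Fin R.r) : R.pr (pa R π γ) (π j) = R.pr γ j := by
  rw [RS.pr_eq, RS.pr_eq, ← Equiv.sum_comp π]
  simp only [pa_apply, Equiv.symm_apply_apply, h _ _]

/-- isometries which preserve the root system -/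
def Is (R : RS) (g : R.Aut) : Prop :=
  (∀ γ δ, R.B (g γ) (g δ) = R.B γ δ) ∧ ∀ γ ∈ R.Φ, g γ ∈ R.Φ ∧ g⁻¹ γ ∈ R.Φ

theorem Is.mul (h : Is R w) (h' : Is R w') : Is R (w * w') :=
  ⟨fun γ δ => by rw [RS.mul_app, RS.mul_app, h.1, h'.1], fun γ e =>
    ⟨(h.2 _ (h'.2 γ e).1).1, by rw [_root_.mul_inv_rev]; exact (h'.2 _ (h.2 γ e).2).2⟩⟩

theorem Is.inv (h : Is R w) : Is R w⁻¹ :=
  ⟨fun γ δ => by rw [← h.1, RS.app_inv, RS.app_inv], fun γ e => ⟨(h.2 γ e).2, (h.2 γ e).1⟩⟩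

section

variable (hR : R.Ok)
include hR

theorem pa_sE (h : Dg R π) (i : Fin R.r) : pa R π * R.sE i * (pa R π)⁻¹ = R.sE (π i) := by
  rw [mul_inv_eq_iff_eq_mul]
  exact LinearEquiv.ext fun γ => by
    rw [RS.mul_app, RS.mul_app, hR.sE_eq, hR.sE_eq, pa_pr h, map_sub, map_smul, pa_α]

theorem pa_conj (h : Dg R π) (hw : w ∈ R.W) : pa R π * w * (pa R π)⁻¹ ∈ R.W := by
  refine hR.ind (J := Set.univ) (P := fun w => pa R π * w * (pa R π)⁻¹ ∈ R.W) ?_
    (fun w _ j _ _ ih => ?_) hw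
  · rw [mul_one, mul_inv_cancel]; exact one_mem _
  · have := mul_mem ih (RS.sE_mem_W (π j))
    rwa [← pa_sE hR h, show pa R π * w * (pa R π)⁻¹ * (pa R π * R.sE j * (pa R π)⁻¹) =
      pa R π * (w * R.sE j) * (pa R π)⁻¹ by group] at this

theorem pa_mem (h : Dg R π) (hγ : γ ∈ R.Φ) : pa R π γ ∈ R.Φ := by
  obtain ⟨w, hw, i, rfl⟩ := hR.exists_conj hγ
  have := hR.map_mem (pa_conj hR h hw) (hR.simple (π i))
  rwa [RS.mul_app, RS.mul_app, ← pa_α, RS.inv_app] at this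

theorem is_W (hw : w ∈ R.W) : Is R w :=
  ⟨hR.B_inv hw, fun _ e => ⟨hR.map_mem hw e, hR.map_mem (inv_mem hw) e⟩⟩

theorem is_pa (h : Dg R π) : Is R (pa R π) := by
  refine ⟨fun γ δ => ?_, fun γ e => ⟨pa_mem hR h e, by rw [pa_inv]; exact pa_mem hR (dg_inv h) e⟩⟩
  have := hR.finite_W
  have := Fintype.ofFinite R.W
  rw [hR.B_eq, hR.B_eq]
  refine (Fintype.sum_bijective (fun w : R.W => (⟨_, pa_conj hR h w.2⟩ : R.W))
    (Finite.injective_iff_bijective.1 fun a b e => Subtype.ext ?_) _ _ fun w => ?_).symm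
  · simpa using congrArg Subtype.val e
  · simp only [RS.mul_app, RS.inv_app, dotProduct, pa_apply]
    exact (Equiv.sum_comp π.symm fun j => w.1 γ j * w.1 δ j).symm

theorem ip_comm (x y : Fin R.r → ℝ) : ip R x y = ip R y x := by
  unfold ip
  rw [Finset.sum_comm]
  exact Finset.sum_congr rfl fun i _ => Finset.sum_congr rfl fun j _ => by
    rw [hR.B_comm, mul_comm (x _)]

theorem ip_cv (γ δ : R.Q) : ip R (cv R γ) (cv R δ) = R.B γ δ := by
  rw [hR.B_sum]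
  push_cast
  refine Finset.sum_congr rfl fun i _ => ?_
  rw [hR.B_comm, hR.B_sum]
  push_cast
  rw [Finset.mul_sum]
  exact Finset.sum_congr rfl fun j _ => by rw [hR.B_comm, mul_assoc]; rfl

theorem Is.ip (h : Is R w) (x y : Fin R.r → ℝ) : ip R (ac R w x) (ac R w y) = ip R x y := by
  unfold ac
  simp only [ip_sum, ip_sum', ip_smul, ip_smul', ip_cv hR, h.1, Finset.mul_sum]
  unfold P011UHB.ip
  rw [Finset.sum_comm]
  exact Finset.sum_congr rfl fun i _ => Finset.sum_congr rfl fun j _ => by ring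

theorem Is.ev (h : Is R w) (x : Fin R.r → ℝ) (γ : R.Q) :
    P011UHB.ip R (ac R w⁻¹ x) (cv R γ) = P011UHB.ip R x (cv R (w γ)) := by
  rw [← h.ip hR, ac_ac_inv, ac_cv]

theorem ip_pos (h : x ≠ 0) : 0 < ip R x x := by
  have := hR.finite_W
  have := Fintype.ofFinite R.W
  have e : ip R x x = ∑ w : R.W, ac R w.1 x ⬝ᵥ ac R w.1 x := by
    unfold ac ip
    simp only [hR.B_eq, sum_dotProduct, dotProduct_sum, smul_dotProduct, dotProduct_smul,
      smul_eq_mul, Int.cast_sum, Finset.mul_sum]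
    rw [Finset.sum_comm (γ := R.W)]
    refine Finset.sum_congr rfl fun i _ => ?_
    rw [Finset.sum_comm (γ := R.W)]
    refine Finset.sum_congr rfl fun j _ => Finset.sum_congr rfl fun w _ => ?_
    simp only [dotProduct, cv, Int.cast_sum, Int.cast_mul, Finset.mul_sum]
    exact Finset.sum_congr rfl fun a _ => by ring
  rw [e]
  refine Finset.sum_pos' (fun w _ => Finset.sum_nonneg fun i _ => mul_self_nonneg _)
    ⟨1, Finset.mem_univ _, ?_⟩
  obtain ⟨i, hi⟩ := Function.ne_iff.1 h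
  rw [show ((1 : R.W) : R.Aut) = 1 from rfl, ac_one]
  exact Finset.sum_pos' (fun i _ => mul_self_nonneg _) ⟨i, Finset.mem_univ _, mul_self_pos.2 hi⟩

theorem ac_sE (i : Fin R.r) (x : Fin R.r → ℝ) : ac R (R.sE i) x =
    x - (2 * ip R x (cv R (R.α i)) / R.B (R.α i) (R.α i)) • cv R (R.α i) := by
  have h0 : (R.B (R.α i) (R.α i) : ℝ) ≠ 0 := Int.cast_ne_zero.2 (hR.B_α_pos i).ne'
  have e : 2 * ip R x (cv R (R.α i)) / R.B (R.α i) (R.α i) = ∑ j, x j * R.pr (R.α j) i := by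
    rw [div_eq_iff h0, ip_comm hR, ip_right, Finset.mul_sum, Finset.sum_mul]
    refine Finset.sum_congr rfl fun j _ => ?_
    rw [ip_cv hR, mul_assoc, ← Int.cast_mul, hR.pr_B, hR.B_comm]
    push_cast
    ring
  rw [e, Finset.sum_smul]
  nth_rw 2 [eq_sum x]
  rw [← Finset.sum_sub_distrib]
  exact Finset.sum_congr rfl fun j _ => by rw [hR.sE_eq, cv_sub, cv_smul, smul_sub, mul_smul]

theorem sE_fix (h : ip R x (cv R (R.α i)) = 0) : ac R (R.sE i) x = x := by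
  rw [ac_sE hR, h, mul_zero, zero_div, zero_smul, sub_zero]

theorem WJ_fix (hw : w ∈ R.WJ J) (h : ∀ j ∈ J, ip R x (cv R (R.α j)) = 0) : ac R w x = x :=
  hR.ind (P := fun w => ac R w x = x) (ac_one x)
    (fun w _ j hj _ ih => by rw [ac_mul, sE_fix hR (h j hj), ih]) hw

theorem exists_dm (x : Fin R.r → ℝ) : ∃ e ∈ R.W, Dm R (ac R e⁻¹ x) := by
  have := hR.finite_W
  obtain ⟨e, he⟩ := Finite.exists_max fun e : R.W => ∑ j, ac R e.1⁻¹ x j
  refine ⟨e, e.2, fun i => not_lt.1 fun c => ?_⟩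
  have h1 := he ⟨e * R.sE i, mul_mem e.2 (RS.sE_mem_W i)⟩
  have h2 : ∑ j, cv R (R.α i) j = 1 := by simp [cv, RS.α_apply]
  have h3 : (0 : ℝ) < R.B (R.α i) (R.α i) := Int.cast_pos.2 (hR.B_α_pos i)
  simp only [_root_.mul_inv_rev, hR.sE_inv, ac_mul, ac_sE hR, Pi.sub_apply, Pi.smul_apply,
    smul_eq_mul, Finset.sum_sub_distrib, ← Finset.mul_sum, h2] at h1
  have h4 := div_neg_of_neg_of_pos (mul_neg_of_pos_of_neg two_pos c) h3
  linarith

theorem stab (hw : w ∈ R.W) (hx : Dm R x) (h : Dm R (ac R w x)) :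
    w ∈ R.WJ {i | ip R x (cv R (R.α i)) = 0} := by
  refine hR.mem_WJ_of_Inv hw fun γ e => ⟨e.1, e.2.1, fun i hi => ?_⟩
  have h1 := Dm.nonpos h e.2.2
  rw [← ac_cv, (is_W hR hw).ip hR] at h1
  have h2 := h1.antisymm (Dm.nonneg hx e.2.1)
  rw [ip_right] at h2
  have h3 := (Finset.sum_eq_zero_iff_of_nonneg fun i _ =>
    mul_nonneg (Int.cast_nonneg (e.2.1 i)) (hx i)).1 h2 i (Finset.mem_univ i)
  exact Int.cast_eq_zero.1 ((mul_eq_zero.1 h3).resolve_right hi)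

theorem dm_pa (h : Dg R π) (hx : Dm R x) : Dm R (ac R (pa R π) x) := fun i => by
  rw [← π.apply_symm_apply i, ← pa_α, ← ac_cv, (is_pa hR h).ip hR]
  exact hx _

end

end Vale.Agent.P011UBN
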