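import Vale.Agent.P011UBN.Geo
import Mathlib.NumberTheory.Real.Irrational

/-!
BND: closed local geodesics in buildings have length at least `2 π`.
-/

set_option autoImplicit false
set_option linter.all false

namespace Vale.Agent.P011UBN

open Matrix Vale.Agent.P183CH Vale.Agent.P011U Vale.Agent.P011UHB
open Vale.Agent.P011UC (pa)

variable {R : RS} {X : Type} {δ : X → X → R.Aut} {θ : X → X} {π : Equiv.Perm (Fin R.r)}
  {S : Set (Fin R.r → ℝ)} {w : R.Aut} {x : X} {v : Fin R.r → ℝ} {c t : ℝ} {m n z : Mk R X}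

theorem no5 {s : ℝ} {a b : ℤ} (hb : 0 < b) (h : (a : ℝ) = s * b) (hs : s ^ 2 + s - 1 = 0) :
    False := by
  have h0 : (b : ℝ) ≠ 0 := Int.cast_ne_zero.2 hb.ne'
  refine (by norm_num : Nat.Prime 5).irrational_sqrt ⟨|2 * (a / b) + 1|, ?_⟩
  push_cast
  rw [h, mul_div_cancel_right₀ _ h0, ← Real.sqrt_sq_eq_abs]
  exact congrArg _ (by linarith)

/-- the context -/
structure Cx (δ : X → X → R.Aut) (θ : X → X) (π : Equiv.Perm (Fin R.r))
    (S : Set (Fin R.r → ℝ)) (w : R.Aut) : Prop where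
  hR : R.Ok
  hB : Bld R δ
  hA : Au R δ θ π
  u : w * (pa R π)⁻¹ ∈ R.W
  fw : ∀ y ∈ S, ac R w y ∈ S
  bw : ∀ y ∈ S, ac R w⁻¹ y ∈ S
  add : ∀ y ∈ S, ∀ y' ∈ S, y + y' ∈ S

/-- good marked chambers -/
structure Gd (δ : X → X → R.Aut) (θ : X → X) (π : Equiv.Perm (Fin R.r))
    (S : Set (Fin R.r → ℝ)) (w : R.Aut) (t : ℝ) (m : Mk R X) : Prop where
  ok : m.Ok S
  sp : S ⊆ Sp m.P
  d : D δ S m (sh θ π w m)
  e : m.P + ac R w (ac R w m.P) = t • ac R w m.P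

theorem sh_P : (sh θ π w m).P = ac R w m.P := rfl

theorem it_a (k : ℕ) : ((sh θ π w)^[k] m).a = θ^[k] m.a := by
  induction k with
  | zero => rfl
  | succ k ih => rw [Function.iterate_succ_apply', Function.iterate_succ_apply', ← ih]; rfl

theorem it_l (k : ℕ) : ((sh θ π w)^[k] m).l = w ^ k * m.l * (pa R π ^ k)⁻¹ := by
  induction k with
  | zero => simp
  | succ k ih =>
    rw [Function.iterate_succ_apply', pow_succ', pow_succ']
    exact (congrArg (w * · * (pa R π)⁻¹) ih).trans (by group)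

namespace Cx

variable (C : Cx δ θ π S w)
include C

theorem is : Is R w := by
  have := (is_W C.hR C.u).mul (is_pa C.hR C.hA.1)
  rwa [inv_mul_cancel_right] at this

theorem ok (h : m.Ok S) : (sh θ π w m).Ok S := h.sh C.hR C.hA.1 C.u C.fw

theorem gd (h : Gd δ θ π S w t m) : Gd δ θ π S w t (sh θ π w m) :=
  ⟨C.ok h.ok, sp_sh C.hR C.is C.bw h.sp, h.d.sh C.hA C.bw, by
    rw [sh_P, ← ac_add, h.e, ac_smul]⟩

theorem md (h : Gd δ θ π S w t m) : ∃ z : Mk R X, z.P = m.P + ac R w m.P ∧ z.Ok S ∧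
    D δ S m z ∧ D δ S (sh θ π w m) z :=
  mid C.hR C.hB h.ok (h.d.symm C.hB) (C.add _ h.ok.2.1 _ (C.fw _ h.ok.2.1))

theorem fwd (h : Gd δ θ π S w t m) (hz : z.Ok S) (e : z.P = ac R w m.P + ac R w (ac R w m.P))
    (hd : D δ S (sh θ π w m) z) (ht : 0 ≤ t + 1) : D δ S m z :=
  D.trans C.hR C.hB h.ok (C.ok h.ok) hz h.sp h.d hd ht one_pos zero_le_one (by
    rw [e, sh_P]; linear_combination (norm := module) (-1 : ℝ) • h.e)

theorem bwd (h : Gd δ θ π S w t m) (hz : z.Ok S) (e : z.P = m.P + ac R w m.P)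
    (hd : D δ S (sh θ π w m) z) (ht : 0 ≤ t + 1) : D δ S (sh θ π w (sh θ π w m)) z :=
  D.trans C.hR C.hB (C.ok (C.ok h.ok)) (C.ok h.ok) hz (C.gd (C.gd h)).sp ((C.gd h).d.symm C.hB) hd
    ht one_pos zero_le_one (by
      rw [e, sh_P, sh_P, sh_P]; linear_combination (norm := module) (-1 : ℝ) • h.e)

theorem fwd2 (h : Gd δ θ π S w t m) (hz : z.Ok S)
    (e : z.P = ac R w (ac R w m.P) + ac R w (ac R w (ac R w m.P)))
    (hd : D δ S (sh θ π w (sh θ π w m)) z) (ht : 0 ≤ t) (ht' : 0 ≤ t ^ 2 + t - 1) : D δ S m z := by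
  have h1 := (C.gd h).e
  refine D.trans C.hR C.hB h.ok (C.ok (C.ok h.ok)) hz h.sp (D.trans C.hR C.hB h.ok (C.ok h.ok)
    (C.ok (C.ok h.ok)) h.sp h.d (C.gd h).d ht one_pos zero_le_one ?_) hd ht' one_pos ht ?_
  · simp only [sh_P]
    linear_combination (norm := module) (-1 : ℝ) • h.e
  · simp only [sh_P, e] at h1 ⊢
    linear_combination (norm := module) (-1 : ℝ) • h.e - t • h1

theorem bwd2 (h : Gd δ θ π S w t m) (hz : z.Ok S) (e : z.P = m.P + ac R w m.P)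
    (hd : D δ S (sh θ π w m) z) (ht : 0 ≤ t) (ht' : 0 ≤ t ^ 2 + t - 1) :
    D δ S (sh θ π w (sh θ π w (sh θ π w m))) z := by
  have h1 := (C.gd h).e
  have g3 := C.gd (C.gd (C.gd h))
  refine D.trans C.hR C.hB g3.ok (C.ok h.ok) hz g3.sp (D.trans C.hR C.hB g3.ok (C.ok (C.ok h.ok))
    (C.ok h.ok) g3.sp ((C.gd (C.gd h)).d.symm C.hB) ((C.gd h).d.symm C.hB) ht one_pos zero_le_one
    ?_) hd ht' one_pos ht ?_
  · simp only [sh_P] at h1 ⊢
    linear_combination (norm := module) (-1 : ℝ) • h1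
  · simp only [sh_P, e] at h1 ⊢
    linear_combination (norm := module) (-1 : ℝ) • h1 - t • h.e

theorem zz (h : Gd δ θ π S w t m) (hz : z.Ok S) (e : z.P = m.P + ac R w m.P) (hs : S ⊆ Sp z.P)
    (hd : D δ S m z) (hd' : D δ S (sh θ π w m) z) (ht : 0 ≤ t + 2) : D δ S z (sh θ π w z) :=
  D.trans C.hR C.hB hz (C.ok h.ok) (C.ok hz) hs (hd'.symm C.hB) (hd.sh C.hA C.bw) ht one_pos
    zero_le_one (by
      rw [sh_P, sh_P, e, ac_add]; linear_combination (norm := module) (-1 : ℝ) • h.e)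

theorem close {l : ℕ} (hl : ∀ x, δ x (θ^[l] x) = 1) (hd : D δ S m z)
    (hd' : D δ S ((sh θ π w)^[l] m) z) (h1 : m.l = 1) : Fx S (w ^ l) := by
  have := Fx.mul hd' (Fx.inv hd)
  rwa [it_a, it_l, pa_pow C.hR C.hB C.hA hl m.a, h1, C.hB.inv z.a, C.hB.one _ _ _ (hl _),
    ← C.hB.inv z.a, show w ^ l * 1 * 1⁻¹ * δ m.a z.a * z.l⁻¹ * (1 * δ m.a z.a * z.l⁻¹)⁻¹ = w ^ l by
      group] at this

theorem fix3 (hl : ∀ x, δ x (θ^[3] x) = 1) (h : Gd δ θ π S w t m) (h1 : m.l = 1)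
    (ht : 0 < t + 1) : ac R w m.P = m.P := by
  obtain ⟨z, e, hz, d1, d2⟩ := C.md (C.gd h)
  have h3 := C.close hl (C.fwd h hz e d1 ht.le) (C.bwd (C.gd h) hz e d2 ht.le) h1 _ h.ok.2.1
  have r2 := (C.gd (C.gd h)).e
  simp only [pow_succ, pow_zero, one_mul, ac_mul] at h3
  simp only [sh_P, h3] at r2
  refine smul_right_injective _ ht.ne' ?_
  linear_combination (norm := module) r2 - h.e

theorem fix5 (hl : ∀ x, δ x (θ^[5] x) = 1) (h : Gd δ θ π S w t m) (h1 : m.l = 1)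
    (ht : 0 ≤ t) (ht' : 0 < t ^ 2 + t - 1) : ac R w m.P = m.P := by
  have g2 := C.gd (C.gd h)
  obtain ⟨z, e, hz, d1, d2⟩ := C.md g2
  have h3 := C.close hl (C.fwd2 h hz e d1 ht ht'.le) (C.bwd2 g2 hz e d2 ht ht'.le) h1 _ h.ok.2.1
  have r1 := (C.gd h).e
  have r3 := (C.gd g2).e
  have r4 := (C.gd (C.gd g2)).e
  simp only [pow_succ, pow_zero, one_mul, ac_mul] at h3
  simp only [sh_P, h3] at r1 r3 r4
  refine smul_right_injective _ ht'.ne' ?_
  linear_combination (norm := module) r4 - h.e + t • r4 - t • h.e + r3 + h.e - r4 - r1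

end Cx

theorem fin {l : ℕ} (C : Cx δ θ π Set.univ w) (hl : ∀ x, δ x (θ^[l + 1] x) = 1)
    (hw : w ^ (l + 1) = 1) (h : Gd δ θ π Set.univ w t m) (h1 : m.l = 1) (hz : z.Ok Set.univ)
    {κ : ℝ} (hκ : 0 < κ) (e : z.P = -κ • m.P) (d0 : D δ Set.univ m z)
    (d1 : D δ Set.univ (sh θ π w m) z) (dl : D δ Set.univ ((sh θ π w)^[l] m) z)
    (dz : D δ Set.univ z (sh θ π w z)) : Ap R δ θ m.a z.a := by
  have k : ∀ {m n : Mk R X}, D δ Set.univ m n → δ m.a n.a = m.l⁻¹ * n.l := fun h => by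
    rw [eq_inv_mul_iff_mul_eq, ← mul_inv_eq_one]
    exact eq_one_of fun y => h y trivial
  have k0 := k d0
  have k1 : δ (θ m.a) z.a = _ := k d1
  have k2 : δ m.a (θ m.a) = _ := k h.d
  have k3 : δ (θ z.a) z.a = _ := k (dz.symm C.hB)
  have k4 := k (dl.sh C.hA C.bw)
  rw [← Function.iterate_succ_apply' (sh θ π w), it_a, it_l, pa_pow C.hR C.hB C.hA hl m.a, hw,
    C.hB.inv, C.hB.one _ _ _ (hl _), ← C.hB.inv, one_mul, inv_one, mul_one] at k4
  refine ⟨⟨C.hB.mem _ _, fun j _ => ?_⟩, by rw [k0, k1, k2]; group,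
    (congrArg (· * _) k4).trans (by rw [k0, k3]; group)⟩
  rw [k0, h1, inv_one, one_mul]
  refine (C.hR.sign' hz.1 (C.hR.simple j)).resolve_left fun c => ?_
  have hγ := C.hR.map_mem hz.1 (C.hR.simple j)
  have a1 := hz.2.2 j
  have a2 := h.ok.2.2
  rw [h1, inv_one, ac_one] at a2
  rw [(is_W C.hR hz.1).ev C.hR, e, ip_smul, neg_mul, neg_nonneg] at a1
  have a3 := h.sp (Set.mem_univ (cv R (z.l (R.α j)))) _ hγ
    (le_antisymm (nonpos_of_mul_nonpos_right a1 hκ) (Dm.nonneg a2 c))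
  rw [ip_cv C.hR] at a3
  exact (C.hR.B_pos (C.hR.sign _ hγ).1).ne' (Int.cast_eq_zero.1 a3)

theorem sp_smul {a : ℝ} (ha : a ≠ 0) (h : S ⊆ Sp v) : S ⊆ Sp (a • v) := fun y hy γ hγ e =>
  h hy γ hγ (by rw [ip_smul] at e; exact (mul_eq_zero.1 e).resolve_left ha)

theorem cyz {l : ℕ} (h : Cyz R l w) (y : Fin R.r → ℝ) :
    ∑ j ∈ Finset.range l, ac R (w ^ j) y = 0 := by
  unfold ac
  rw [Finset.sum_comm]
  exact Finset.sum_eq_zero fun i _ => by rw [← Finset.smul_sum, ← cv_sum, h, cv_zero, smul_zero]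

theorem cyz_pow {l : ℕ} (h : Cyz R l w) : w ^ l = 1 := eq_one_of fun y => by
  have h1 := Finset.sum_range_succ' (fun j => ac R (w ^ j) y) l
  rw [Finset.sum_range_succ, cyz h] at h1
  simp only [pow_succ, ac_mul, cyz h, pow_zero, ac_one, zero_add] at h1
  exact h1

theorem tp_e (h : Tp R w v c) : v + ac R w (ac R w v) = (2 * c) • ac R w v := by
  rw [← ac_smul, ← h.eig, ac_add, ac_ac_inv, add_comm]

theorem gd0 (hS : v ∈ S) (hs : S ⊆ Sp v) (h : Tp R (δ x (θ x) * pa R π) v c) :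
    Gd δ θ π S (δ x (θ x) * pa R π) (2 * c) ⟨x, 1, v⟩ :=
  ⟨⟨one_mem _, hS, by rw [inv_one, ac_one]; exact h.dom⟩, hs, by
    unfold D sh
    simp only
    rw [show 1 * δ x (θ x) * (δ x (θ x) * pa R π * 1 * (pa R π)⁻¹)⁻¹ = 1 by group]
    exact Fx.one, tp_e h⟩

theorem ap3 (C : Cx δ θ π Set.univ (δ x (θ x) * pa R π)) (hl : ∀ x, δ x (θ^[3] x) = 1)
    (h : Tp R (δ x (θ x) * pa R π) v c) (hc : Cyz R 3 (δ x (θ x) * pa R π)) :
    ∃ z, Ap R δ θ x z := by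
  have N := cyz hc
  simp only [Finset.sum_range_succ, Finset.sum_range_zero, pow_succ, pow_zero, one_mul, ac_mul,
    ac_one, zero_add] at N
  have A : ∀ y, ac R (δ x (θ x) * pa R π) y + ac R (δ x (θ x) * pa R π)⁻¹ y = (-1 : ℝ) • y :=
    fun y => by
      have := N (ac R (δ x (θ x) * pa R π)⁻¹ y)
      simp only [← ac_mul _ (pa R π), ac_ac_inv] at this
      linear_combination (norm := module) this
  have ht : 2 * c = -1 := smul_left_injective ℝ h.ne (h.eig.symm.trans (A v))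
  have g := gd0 (S := Set.univ) trivial (fun y _ γ hγ e => h.gen γ hγ e y (by rw [ht, A])) h
  obtain ⟨z, e, hz, d1, d2⟩ := C.md (C.gd g)
  have e' : z.P = -(1 : ℝ) • v := by
    rw [e]
    simp only [sh_P, ac_mul]
    linear_combination (norm := module) N v
  exact ⟨z.a, fin C hl (cyz_pow hc) g rfl hz one_pos e' (C.fwd g hz e d1 (by linarith)) d1 d2
    (C.zz (C.gd g) hz e (by rw [e']; exact sp_smul (by norm_num) g.sp) d1 d2 (by linarith))⟩

theorem reg5 (hR : R.Ok) (hw : Is R w) (h : Tp R w v c) (hc : Cyz R 5 w) :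
    (2 * c) ^ 2 + 2 * c - 1 = 0 ∧ 0 < 2 * c ∧ Set.univ ⊆ Sp v ∧
      ac R w (ac R w v) + ac R w (ac R w (ac R w v)) = -(1 + 2 * c) • v := by
  have N := cyz hc
  simp only [Finset.sum_range_succ, Finset.sum_range_zero, pow_succ, pow_zero, one_mul, ac_mul,
    ac_one, zero_add] at N
  obtain ⟨A, hA⟩ : ∃ A : (Fin R.r → ℝ) →ₗ[ℝ] (Fin R.r → ℝ), ∀ y, A y = ac R w y + ac R w⁻¹ y :=
    ⟨acL w + acL w⁻¹, fun _ => rfl⟩
  have A2 : ∀ y, A (A y) = y - A y := fun y => by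
    have := N (ac R w⁻¹ (ac R w⁻¹ y))
    simp only [hA, ac_add, ac_ac_inv, ac_inv_ac] at this ⊢
    linear_combination (norm := module) this
  have ev : A v = (2 * c) • v := by rw [hA, h.eig]
  have ht : (2 * c) ^ 2 + 2 * c - 1 = 0 := by
    have := A2 v
    rw [ev, map_smul, ev] at this
    refine smul_left_injective ℝ h.ne ?_
    linear_combination (norm := module) this
  have hB : ∀ γ, ip R (A (cv R γ)) (cv R γ) = (R.B (w γ) γ + R.B (w⁻¹ γ) γ : ℤ) := fun γ => by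
    rw [hA, ip_add, ac_cv, ac_cv, ip_cv hR, ip_cv hR, Int.cast_add]
  refine ⟨ht, not_le.1 fun c0 => ?_, fun y _ γ hγ e => ?_, ?_⟩
  · have hγ := hR.simple ⟨0, hR.pos⟩
    obtain ⟨y, hy⟩ : ∃ y, y = A (cv R (R.α ⟨0, hR.pos⟩)) - (2 * c) • cv R (R.α ⟨0, hR.pos⟩) :=
      ⟨_, rfl⟩
    have e1 : A y = -(1 + 2 * c) • y := by
      rw [hy, map_sub, map_smul, A2]
      linear_combination (norm := module) -ht • cv R (R.α ⟨0, hR.pos⟩)
    have e2 : y = 0 := by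
      by_contra c1
      have a1 := ip_pos hR c1
      have a2 := h.top y
      have a3 := congrArg (ip R y) e1
      rw [hA, ip_add', ip_smul', ← hw.ip hR y (ac R w⁻¹ y), ac_ac_inv, ip_comm hR (ac R w y)] at a3
      have a4 : -(1 + 2 * c) ≤ 2 * c := le_of_mul_le_mul_right (by linarith) a1
      nlinarith
    have e3 := congrArg (ip R · (cv R (R.α ⟨0, hR.pos⟩))) (hy.symm.trans e2)
    simp only [ip_sub, ip_smul, hB, ip_cv hR] at e3
    exact no5 (s := 2 * c) (hR.B_α_pos ⟨0, hR.pos⟩) (sub_eq_zero.1 (e3.trans (by simp [ip]))) ht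
  · have e1 := h.gen γ hγ e (A (cv R γ) + (1 + 2 * c) • cv R γ) (by
      rw [← hA, map_add, map_smul, A2]
      linear_combination (norm := module) -ht • cv R γ)
    rw [ip_add, ip_smul, hB, ip_cv hR] at e1
    exact (no5 (s := -(1 + 2 * c)) (hR.B_pos (hR.sign _ hγ).1)
      ((eq_neg_of_add_eq_zero_left e1).trans (neg_mul _ _).symm) (by linear_combination ht)).elim
  · have a1 := N v
    have a2 := congrArg (ac R w) a1
    have a3 := N (ac R w⁻¹ v)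
    simp only [ac_ac_inv] at a3
    linear_combination (norm := module) a3 - h.eig

theorem ap5 (C : Cx δ θ π Set.univ w) (hw : w = δ x (θ x) * pa R π) (hl : ∀ x, δ x (θ^[5] x) = 1)
    (h : Tp R w v c) (hc : Cyz R 5 w) : ∃ z, Ap R δ θ x z := by
  obtain ⟨ht, h0, hs, e0⟩ := reg5 C.hR C.is h hc
  have g : Gd δ θ π Set.univ w (2 * c) ⟨x, 1, v⟩ := by
    subst hw
    exact gd0 trivial hs h
  have g2 := C.gd (C.gd g)
  obtain ⟨z, e, hz, d2, d3⟩ := C.md g2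
  have e' : z.P = -(1 + 2 * c) • v := e.trans e0
  exact ⟨z.a, fin C hl (cyz_pow hc) g rfl hz (by linarith) e' (C.fwd2 g hz e d2 h0.le ht.ge)
    (C.fwd (C.gd g) hz e d2 (by linarith)) (C.bwd g2 hz e d3 (by linarith))
    (C.zz g2 hz e (by rw [e']; exact sp_smul (by linarith) g.sp) d2 d3 (by linarith))⟩

theorem sb (hR : R.Ok) (hB : Bld R δ) (hA : Au R δ θ π) (h0 : v ≠ 0) (hv : Dm R v)
    (h : ac R (δ x (θ x) * pa R π) v = v) : ∃ J, J ≠ Set.univ ∧ Sb R δ θ π x J := by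
  rw [ac_mul] at h
  have h1 := stab hR (hB.mem x (θ x)) (dm_pa hR hA.1 hv) (by rw [h]; exact hv)
  have h2 : ac R (pa R π) v = v := (WJ_fix hR h1 fun _ e => e).symm.trans h
  rw [h2] at h1
  refine ⟨_, fun e => (ip_pos hR h0).ne' ?_, h1, fun i => ?_⟩
  · rw [ip_right]
    exact Finset.sum_eq_zero fun i _ => mul_eq_zero_of_right _ (Set.eq_univ_iff_forall.1 e i)
  · rw [Set.mem_setOf_eq, Set.mem_setOf_eq, ← pa_α, ← ac_cv]
    nth_rw 1 [← h2]
    rw [(is_pa hR hA.1).ip hR]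

/-- BND. -/
theorem bnd : BND := by
  intro R hR X δ θ π hB hA l hl3 hl x v c h
  by_cases hv : ac R (δ x (θ x) * pa R π) v = v
  · exact Or.inl (sb hR hB hA h.ne h.dom hv)
  have hu : δ x (θ x) * pa R π * (pa R π)⁻¹ ∈ R.W := by
    rw [mul_inv_cancel_right]; exact hB.mem _ _
  have C : Cx δ θ π {y | ac R (δ x (θ x) * pa R π) y + ac R (δ x (θ x) * pa R π)⁻¹ y = (2 * c) • y}
      (δ x (θ x) * pa R π) := ⟨hR, hB, hA, hu, fun y e => by
    rw [Set.mem_setOf_eq, ← ac_smul, ← e, ac_add, ac_inv_ac, ac_ac_inv], fun y e => by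
    rw [Set.mem_setOf_eq, ← ac_smul, ← e, ac_add, ac_inv_ac, ac_ac_inv], fun y e y' e' => by
    rw [Set.mem_setOf_eq, ac_add, ac_add, smul_add, ← e, ← e']; abel⟩
  have g := gd0 (S := {y | ac R (δ x (θ x) * pa R π) y + ac R (δ x (θ x) * pa R π)⁻¹ y =
    (2 * c) • y}) h.eig (fun y e γ hγ e' => h.gen γ hγ e' y e) h
  have C' : Cx δ θ π Set.univ (δ x (θ x) * pa R π) :=
    ⟨hR, hB, hA, hu, fun _ _ => trivial, fun _ _ => trivial, fun _ _ _ _ => trivial⟩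
  rcases hl3 with rfl | rfl
  · exact Or.inr ⟨Or.inl ⟨rfl, not_lt.1 fun e => hv (C.fix3 hl g rfl e)⟩, ap3 C' hl h⟩
  · refine Or.inr ⟨Or.inr ⟨rfl, ?_⟩, ap5 C' rfl hl h⟩
    by_contra e
    push Not at e
    exact hv (C.fix5 hl g rfl (by linarith [e.1]) (by linarith [e.2]))

end Vale.Agent.P011UBN
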